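import Vale.Agent.N346.AFFinal
import Vale.Agent.N346.UpperBound

/-!
# P346: homogeneous depth-five complexity of iterated matrix multiplication, every field

Over every field, `s_K(n) = n ^ Θ(√n)`, with explicit exponents and a threshold that does not
depend on the field.
-/

namespace Vale.Agent.Results.P346.A0AllFields

open Vale.Agent.N346

universe u

theorem result :
    ∃ n₀ : ℕ, ∀ (K : Type u) [Field K] (n : ℕ) [NeZero n], n₀ ≤ n →
      ((n : ℝ) ^ (Real.sqrt n / 80) ≤ (sK K n : ℝ) ∧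
        (sK K n : ℝ) ≤ (n : ℝ) ^ (Real.sqrt n + 4)) ∧
      (∀ C : Circuit K (Var n n), C.IsSynHom → C.output = IMM K n n →
        (n : ℝ) ^ (Real.sqrt n / 80) ≤ (C.size : ℝ)) ∧
      (∃ C : Circuit K (Var n n), C.IsSynHom ∧ C.NoEmptyGate ∧ C.output = IMM K n n ∧
        (C.size : ℝ) ≤ (n : ℝ) ^ (Real.sqrt n + 4)) := by
  obtain ⟨n0, hn0⟩ := AF.lower_bound_all.{u}
  refine ⟨max n0 2, fun K _ n _ hn => ?_⟩
  have hn2 : 2 ≤ n := le_trans (le_max_right _ _) hn
  have low := hn0 K n (le_trans (le_max_left _ _) hn)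
  refine ⟨⟨?_, sK_le_real K n hn2⟩, low, exists_circuit_IMM_real K n hn2⟩
  obtain ⟨C, hC, hout, hs⟩ := sK_spec K n
  rw [← hs]
  exact low C hC hout

end Vale.Agent.Results.P346.A0AllFields
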