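import Vale.Agent.N346.DagUpper

/-!
# P346: homogeneous depth-five circuits for `IMM_{w,d}`, all fields, all `d ≤ w ^ (2 - ε)`
-/

namespace Vale.Agent.Results.P346.A0WidthDegree

open Vale.Agent.N346.Dag

universe u

theorem result :
    (∀ ε : ℝ, 0 < ε → ∃ w₀ : ℕ, ∀ (K : Type u) [Field K] (w d : ℕ) [NeZero w],
      w₀ ≤ w → 2500 ≤ d → (d : ℝ) ≤ (w : ℝ) ^ (2 - ε) →
      ∀ (V : Type) [Finite V] (C : Circ K (Fin d × Fin w × Fin w) V), C.Hom →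
        C.val C.out = imm K w d → (w : ℝ) ^ (ε * √(d : ℝ) / 220) ≤ C.products) ∧
    (∀ (K : Type u) [Field K] (w d : ℕ) [NeZero w], 1 ≤ d →
      ∃ (V : Type) (_ : Finite V) (C : Circ K (Fin d × Fin w × Fin w) V), C.SynHom ∧
        C.val C.out = imm K w d ∧ (Nat.card V : ℝ) ≤ 6 * d * (w : ℝ) ^ (√(d : ℝ) + 2)) ∧
    ∀ (K : Type u) [Field K] (σ V : Type) (C : Circ K σ V), C.SynHom → C.Hom :=
  ⟨fun _ hε => lower hε, fun K _ w d _ hd => upper K w d hd, fun _ _ _ _ C => C.hom_of_syn⟩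

end Vale.Agent.Results.P346.A0WidthDegree
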